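import Vale.Agent.P354ZZ.Top
import Vale.Agent.P354YM.QFin
import Vale.Agent.P354CB60.Plug
import Vale.Agent.P354BL.Main

open Set
open Vale.Agent.P354n (IsIsom)
open Vale.Agent.P354I (X Good)
open Vale.Agent.P354Z (IsWt DD Ext kerr0 IsMGHD)
open Vale.Agent.P354BL (Induced)

/-- Q1: all data have a maximal development, unique up to isometry, and near the two-ended Kerr
data, the data whose maximal development has a future extension with continuous metric and locally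
square integrable Christoffel symbols form a meagre set. -/
theorem Vale.Agent.Results.P354.AAAAFull.result : ∀ M a : ℝ, 0 < M → 0 < |a| → |a| < M →
    Induced M a (kerr0 M a) ∧
    (∃ ρ : X → ℝ, IsWt M a ρ) ∧ ∀ ρ : X → ℝ, IsWt M a ρ → BaireSpace (DD M a ρ) ∧
      (∀ d : DD M a ρ, ∃ N j, IsMGHD d.1 N j ∧ ∀ N' j', IsMGHD d.1 N' j' →
        ∃ κ : N.pt ≃ₜ N'.pt, IsIsom κ ∧ IsIsom κ.symm ∧ ∀ y ≠ 0, κ (j y) = j' y) ∧
      ∃ U : Set (DD M a ρ), IsOpen U ∧ (∃ d ∈ U, d.1 = kerr0 M a) ∧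
        IsMeagre {d : U | Ext d.1.1} ∧ IsMeagre {d : U | ¬ Good d.1.1} ∧
        Dense {d : U | Good d.1.1 ∧ ¬ Ext d.1.1} := fun M a h1 h2 h3 =>
  have h := Vale.Agent.P354YM.q1_best Vale.Agent.P354ZZ.top M a h1 h2 h3
  ⟨Vale.Agent.P354BL.induced h3, h.1,
    fun ρ hρ => ⟨(h.2 ρ hρ).1, Vale.Agent.P354CB60.cbg, (h.2 ρ hρ).2⟩⟩
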