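import Vale.Agent.P354ZZ.Top
import Vale.Agent.P354YM.QFin

open Set
open Vale.Agent.P354I (X Good)
open Vale.Agent.P354Z (IsWt DD Ext kerr0)

/-- Q1: near the two-ended Kerr data, the data whose maximal development has a future extension
with continuous metric and locally square integrable Christoffel symbols form a meagre set. -/
theorem Vale.Agent.Results.P354.AAFull.result : ∀ M a : ℝ, 0 < M → 0 < |a| → |a| < M →
    (∃ ρ : X → ℝ, IsWt M a ρ) ∧ ∀ ρ : X → ℝ, IsWt M a ρ → BaireSpace (DD M a ρ) ∧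
      ∃ U : Set (DD M a ρ), IsOpen U ∧ (∃ d ∈ U, d.1 = kerr0 M a) ∧
        IsMeagre {d : U | Ext d.1.1} ∧ IsMeagre {d : U | ¬ Good d.1.1} ∧
        Dense {d : U | Good d.1.1 ∧ ¬ Ext d.1.1} :=
  Vale.Agent.P354YM.q1_best Vale.Agent.P354ZZ.top
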