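import Vale.Agent.P354I.Main

open Set

namespace Vale.Agent.Results.P354.AKerrInterior

open Vale.Agent.P354I

/-- Strong cosmic censorship in the class C^0 and W^{1,2}_loc for vacuum data on a complete slice
R x S^2 in the interior of a subextremal rotating Kerr black hole near its inner horizon: in an
open neighbourhood U of the Kerr data, outside of a meagre set, the data have a development such
that it and every development containing it have no future extension of that class. -/
theorem result : ∀ M a s : ℝ, a ≠ 0 → |a| < M → 1 < s → ∃ δ > 0,
    ∀ r0 ∈ Ioo (rm M a) (rm M a + δ), r0 < rp M a ∧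
      ∃ U : Set (Dset M a r0 s), IsOpen U ∧ (∃ d ∈ U, d.1 = kerr M a r0) ∧
        IsMeagre {d : U | ¬ Good d.1.1} ∧ Dense {d : U | Good d.1.1} :=
  main

end Vale.Agent.Results.P354.AKerrInterior
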