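import Vale.Agent.P354I.Main2

open Set

namespace Vale.Agent.Results.P354.AKerrInteriorAll

open Vale.Agent.P354I

/-- Strong cosmic censorship in the class C^0 and W^{1,2}_loc for vacuum data on a complete slice
R x S^2 anywhere in the interior of a subextremal rotating Kerr black hole, which approach
possibly different Kerr solutions p and q at the two ends: there is a ball of data, of a size which
does not depend on p and q, open and not empty, in which, outside of a meagre set, the data have a
development such that it and every development containing it have no future extension of that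
class. -/
theorem result : ∀ M a r0 s : ℝ, a ≠ 0 → |a| < M → rm M a < r0 → r0 < rp M a → 1 < s →
    ∃ (m : ℕ) (η ε : ℝ), 0 < η ∧ 0 < ε ∧ ∀ p q : End, p.Near M a r0 ε → q.Near M a r0 ε →
      IsOpen (Bl (mix p.dat q.dat) s m η) ∧ (Bl (mix p.dat q.dat) s m η).Nonempty ∧
      IsMeagre {d : Bl (mix p.dat q.dat) s m η | ¬ Good d.1.1} ∧
      Dense {d : Bl (mix p.dat q.dat) s m η | Good d.1.1} :=
  main2

end Vale.Agent.Results.P354.AKerrInteriorAll
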